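import Vale.Agent.P160.Main

namespace Vale.Agent.Results.P160.StructuredKernel

open Filter Topology Vale.Agent.P160

/-- Structured singularity of a symmetric sign matrix has the conjectured exponential rate. -/
theorem result :
    (∀ ε : ℝ, 0 < ε →
      Tendsto (fun n : ℕ => prob (Structured ε (n := n)) / ((n : ℝ) ^ 2 / 2 ^ n)) atTop (𝓝 1)) ∧
    ∀ δ : ℝ, 0 < δ → ∀ᶠ n : ℕ in atTop,
      (1 - δ) * ((n : ℝ) ^ 2 / 2 ^ n) ≤ prob (fun ω : Samp n => (signMat ω).det = 0) :=
  ⟨fun _ hε => tendsto_prob_structured hε, fun _ hδ => eventually_singular_ge hδ⟩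

end Vale.Agent.Results.P160.StructuredKernel
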